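import Vale.Agent.P011.H308.L2.LandG
import Vale.Agent.P011.H921.L2.HermG
import Vale.Agent.P011.H921.L2.Bin
import Vale.Agent.P011.H558.C2.Sqb

/-!
# Hermitian matrices over the completions in characteristic two
-/

open Module Matrix

namespace Vale.Agent.P011.H308.L2

open Vale.Agent.P011.H738 Vale.Agent.P011.H271 Vale.Agent.P011.H921

/-- **Hermitian matrices over a quadratic extension of a completion are classified by the
discriminant**, characteristic two. -/
theorem hermCl_two {k : Type} [Field k] [GFF k] (h2 : (2 : k) = 0) (v : Place k) (n : ℕ) :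
    HermCl v.comp n := by
  intro L _ _ _ hfix hne G H hG hH hG0 hH0 ⟨z, hz⟩
  have hGs : star G.det = G.det := by rw [← Matrix.det_conjTranspose, hG]
  obtain ⟨Q, -, hQ⟩ := herm_classG hne (binUniv_of_sqb (H961.C2.two_comp h2 v)
    (fun t ht x => H558.C2.sqb_comp h2 v ht x) hfix hne) G H hG hH hG0 hH0
    ⟨G.det * z, by rw [hz, star_mul', hGs]; ring⟩
  exact ⟨Qᴴ, by rw [Matrix.conjTranspose_conjTranspose]; exact hQ⟩

end Vale.Agent.P011.H308.L2
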