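import Vale.Agent.P011.H308.L2.OddG
import Vale.Agent.P011.H308.L2.HermTwo
import Vale.Agent.P011.H6.L2.GlobG

/-!
# Landherr's theorem over function fields in rank one, every characteristic

Symmetric elements of a division algebra with an involution of the second kind over a global
function field are classified by their reduced norms; in odd degree every symmetric element is a
multiple, by an element of the ground field, of `y * star y`.
-/

open Module Polynomial TensorProduct Matrix

set_option linter.unusedSectionVars false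

namespace Vale.Agent.P011.H308.L2

open Vale.Agent.P011.H738 Vale.Agent.P011.H271 Vale.Agent.P011.H182 Vale.Agent.P011.H305
  Vale.Agent.P011.H167.Lf
open Vale.Agent.P011.H961 (SetG)

variable {k K D : Type} [Field k] [GFF k] [Field K] [StarRing K]
    [DivisionRing D] [StarRing D] [Algebra k K] [Algebra k D] [Algebra K D] [IsScalarTower k K D]
    {n : ℕ} {Ω : Type} [Field Ω] [Algebra K Ω]

/-- The letters of characteristic two. -/
theorem exists_kappa_two (hS : SetG k K D) (h2 : (2 : k) = 0) :
    ∃ (κ : K) (ν : k), star κ = κ + 1 ∧ κ * κ + κ = algebraMap k K ν := by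
  obtain ⟨κ, hκ1, -⟩ := hS.exists_kappa
  obtain ⟨ν, hν, hν'⟩ := hS.exists_nu κ hκ1
  have h2K : (2 : K) = 0 := by rw [← map_ofNat (algebraMap k K) 2, h2, map_zero]
  refine ⟨κ, ν, by linear_combination hκ1 - κ * h2K, ?_⟩
  linear_combination hν' + (κ - algebraMap k K ν) * h2K

/-- **Landherr's theorem in rank one**, characteristic two. -/
theorem land_two (hS : SetG k K D) (h2 : (2 : k) = 0) (hdeg : finrank K D = n ^ 2)
    (f : D →ₐ[K] Matrix (Fin n) (Fin n) Ω) : Land f := by
  intro c e hc he hc0 he0 z hz
  obtain ⟨κ, ν, hκ, hν⟩ := exists_kappa_two hS h2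
  exact landG_of hS h2 hκ hν hdeg f (fun v => hermCl_two h2 v n)
    (fun B => H6.L2.exists_globalG hS h2 hκ hν B) hc he hc0 he0 hz

/-- **Landherr's theorem in rank one**, every characteristic. -/
theorem land_all (hS : SetG k K D) (hdeg : finrank K D = n ^ 2)
    (f : D →ₐ[K] Matrix (Fin n) (Fin n) Ω) : Land f := by
  by_cases h2 : (2 : k) = 0
  · exact land_two hS h2 hdeg f
  · exact land_of_two_ne hS h2 hdeg f

/-- **Landherr's theorem in rank one**, every characteristic: symmetric elements whose reduced
norms differ by a norm from the centre are isometric. -/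
theorem landG (hS : SetG k K D) (hdeg : finrank K D = n ^ 2)
    (f : D →ₐ[K] Matrix (Fin n) (Fin n) Ω) {c e : D} (hc : star c = c) (he : star e = e)
    (hc0 : c ≠ 0) (he0 : e ≠ 0) {z : K}
    (hz : (f e).det = (f c).det * algebraMap K Ω (z * star z)) :
    ∃ t : D, t ≠ 0 ∧ e = t * c * star t := land_all hS hdeg f hc he hc0 he0 hz

/-- **Odd degree**: every symmetric element is `r • (y * c * star y)`, for a given symmetric
element `c`. -/
theorem exists_smul_form (hS : SetG k K D) (hdeg : finrank K D = n ^ 2) (hodd : Odd n)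
    {h c : D} (hh : star h = h) (hc : star c = c) (h0 : h ≠ 0) (hc0 : c ≠ 0) :
    ∃ (r : k) (y : D), r ≠ 0 ∧ y ≠ 0 ∧ h = r • (y * c * star y) := by
  have := hS.fin
  have := hS.cen
  obtain ⟨f⟩ := Vale.Agent.P011S.exists_split (K := K) (D := D) hdeg (AlgebraicClosure K)
  exact exists_smul_norm hS hdeg hodd f (land_all hS hdeg f) hh hc h0 hc0

/-- **Odd degree**: every symmetric element is `r • (y * star y)`. -/
theorem exists_smul_star (hS : SetG k K D) (hdeg : finrank K D = n ^ 2) (hodd : Odd n)
    {h : D} (hh : star h = h) (h0 : h ≠ 0) :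
    ∃ (r : k) (y : D), r ≠ 0 ∧ y ≠ 0 ∧ h = r • (y * star y) := by
  obtain ⟨r, y, hr, hy, e⟩ := exists_smul_form hS hdeg hodd hh (star_one D) h0 one_ne_zero
  exact ⟨r, y, hr, hy, by rw [e, mul_one]⟩

end Vale.Agent.P011.H308.L2
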