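import Vale.Agent.P011.H308.L2.Model
import Vale.Agent.P011.H308.L2.FinG
import Vale.Agent.P011.H167.LfE
import Vale.Agent.P011.H268.Nrd

/-!
# Landherr's theorem over function fields in rank one, letters for every characteristic

From the classification of hermitian matrices over the completions at the places which do not
split and the local-global principle to the global classification of symmetric elements by their
reduced norms.
-/

open Module Polynomial TensorProduct Matrix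

set_option linter.unusedSectionVars false

namespace Vale.Agent.P011.H308.L2

open Vale.Agent.P011.H738 Vale.Agent.P011.H271 Vale.Agent.P011.H182 Vale.Agent.P011.H305
  Vale.Agent.P011.H167.Lf
open Vale.Agent.P011.H961 (SetG)
open Vale.Agent.P011.H961.C2 (Spl2)

variable {k K D : Type} [Field k] [GFF k] [Field K] [StarRing K]
    [DivisionRing D] [StarRing D] [Algebra k K] [Algebra k D] [Algebra K D] [IsScalarTower k K D]
    {n : ℕ} {Ω : Type} [Field Ω] [Algebra K Ω]

/-- Hermitian matrices over a quadratic extension of `F` are classified by the discriminant. -/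
def HermCl (F : Type) [Field F] (n : ℕ) : Prop :=
  ∀ (L : Type) [Field L] [Algebra F L] [StarRing L],
    (∀ x : L, star x = x ↔ x ∈ Set.range (algebraMap F L)) → (∃ x : L, star x ≠ x) →
    ∀ G H : Matrix (Fin n) (Fin n) L, Gᴴ = G → Hᴴ = H → G.det ≠ 0 → H.det ≠ 0 →
      (∃ z : L, H.det = G.det * (z * star z)) → ∃ t : Matrix (Fin n) (Fin n) L, tᴴ * G * t = H

theorem nrd_ne_zero (f : D →ₐ[K] Matrix (Fin n) (Fin n) Ω) {x : D} (hx0 : x ≠ 0) :
    (f x).det ≠ 0 := by
  intro h0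
  have h2 : f x * f x⁻¹ = 1 := by rw [← map_mul, mul_inv_cancel₀ hx0, map_one]
  have h3 := congrArg Matrix.det h2
  rw [Matrix.det_mul, h0, zero_mul, Matrix.det_one] at h3
  exact zero_ne_one h3

/-- Reduced norms of symmetric elements are in `k`. -/
theorem exists_nrdG (hS : SetG k K D) (hdeg : finrank K D = n ^ 2)
    (f : D →ₐ[K] Matrix (Fin n) (Fin n) Ω) {x : D} (hx : star x = x)
    (hx0 : x ≠ 0) : ∃ ν : k, ν ≠ 0 ∧ (f x).det = algebraMap K Ω (algebraMap k K ν) := by
  have := hS.fin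
  have := hS.cen
  have hn0 : 0 < n := W.deg_pos hdeg
  obtain ⟨ν, hν⟩ := H268.exists_nrd hn0 hdeg f x
  have h1 := H268.star_nrd hn0 hdeg (fun c => hS.star_algebraMapD c) f hx hν
  obtain ⟨ν', rfl⟩ := (hS.fix ν).mp h1
  refine ⟨ν', ?_, hν⟩
  rintro rfl
  rw [map_zero, map_zero] at hν
  exact nrd_ne_zero f hx0 hν

/-- Reduced norms in a model. -/
theorem det_modelG (hS : SetG k K D) (hdeg : finrank K D = n ^ 2)
    (f : D →ₐ[K] Matrix (Fin n) (Fin n) Ω) {L : Type} [Field L] (φ : K →+* L)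
    (g : D →+* Matrix (Fin n) (Fin n) L) (hg : ∀ c : K, g (algebraMap K D c) = algebraMap L _ (φ c))
    {x : D} {c : K} (h : (f x).det = algebraMap K Ω c) : (g x).det = φ c := by
  have := hS.fin
  have := hS.cen
  let _ : Algebra K L := φ.toAlgebra
  let g' : D →ₐ[K] Matrix (Fin n) (Fin n) L := { g with commutes' := fun c => hg c }
  exact H268.det_compare (W.deg_pos hdeg) hdeg f g' x h

/-- Rank one hermitian forms with the same discriminant class are isometric over the completion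
at a nonsplit place. -/
theorem tensor_finG (hS : SetG k K D) (hdeg : finrank K D = n ^ 2)
    (f : D →ₐ[K] Matrix (Fin n) (Fin n) Ω) (v : Place k) (hv : IsEmpty (K →ₐ[k] v.comp))
    (hcl : HermCl v.comp n) {e e' : D}
    (he : star e = e) (he' : star e' = e') (he0 : e ≠ 0) (he0' : e' ≠ 0) {z : K}
    (hz : (f e').det = (f e).det * algebraMap K Ω (z * star z)) :
    ∃ T : v.comp ⊗[k] D, (sigG hS).baseChange v.comp T * (1 ⊗ₜ e) * T = 1 ⊗ₜ e' := by
  obtain ⟨L, _, _, _, ρ, φ, G, hfix, -, hne, hGu, hGs, hG, hφ, hφs, hφk⟩ :=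
    exists_modelG hS hdeg v hv
  obtain ⟨g, hg, hgφ⟩ := exists_emb ρ φ hφ
  obtain ⟨ν, hν0, hν⟩ := exists_nrdG hS hdeg f he he0
  obtain ⟨ν', hν0', hν'⟩ := exists_nrdG hS hdeg f he' he0'
  have hd : ∀ {x : D} {c : K}, (f x).det = algebraMap K Ω c →
      (ρ (1 ⊗ₜ x)).det = φ c := by
    intro x c h
    rw [← hg, det_modelG hS hdeg f φ g hgφ h]
  have hG0 : G.det ≠ 0 := ((Matrix.isUnit_iff_isUnit_det G).mp hGu).ne_zero
  have hne' : ∀ c : k, c ≠ 0 → φ (algebraMap k K c) ≠ 0 := fun c hc =>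
    (_root_.map_ne_zero _).mpr ((_root_.map_ne_zero _).mpr hc)
  have hherm : ∀ {x : D}, star x = x → (G * ρ (1 ⊗ₜ x))ᴴ = G * ρ (1 ⊗ₜ x) := by
    intro x hx
    have h1 := hG (1 ⊗ₜ x)
    rw [LinearMap.baseChange_tmul, sigG_apply, hx] at h1
    rw [Matrix.conjTranspose_mul, hGs, ← h1]
  have hνz : algebraMap k K ν' = algebraMap k K ν * (z * star z) := by
    apply (algebraMap K Ω).injective
    rw [← hν', hz, hν, ← map_mul]
  obtain ⟨t, ht⟩ := hcl L hfix hne (G * ρ (1 ⊗ₜ e)) (G * ρ (1 ⊗ₜ e')) (hherm he) (hherm he')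
    (by rw [Matrix.det_mul, hd hν]; exact mul_ne_zero hG0 (hne' _ hν0))
    (by rw [Matrix.det_mul, hd hν']; exact mul_ne_zero hG0 (hne' _ hν0'))
    ⟨φ z, by
      rw [Matrix.det_mul, Matrix.det_mul, hd hν, hd hν', hνz, map_mul, map_mul, hφs]
      ring⟩
  refine ⟨ρ.symm t, ρ.injective ?_⟩
  apply hGu.mul_left_cancel
  rw [map_mul, map_mul, AlgEquiv.apply_symm_apply, ← ht, ← Matrix.mul_assoc, ← Matrix.mul_assoc,
    hG, AlgEquiv.apply_symm_apply]
  simp only [Matrix.mul_assoc]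

/-- The local isometry. -/
theorem loc_finG {N : ℕ} (hS : SetG k K D) (hdeg : finrank K D = n ^ 2) (B : Basis (Fin N) k D)
    (f : D →ₐ[K] Matrix (Fin n) (Fin n) Ω) (v : Place k) (hv : IsEmpty (K →ₐ[k] v.comp))
    (hcl : HermCl v.comp n) {e e' : D}
    (he : star e = e) (he' : star e' = e') (he0 : e ≠ 0) (he0' : e' ≠ 0) {z : K}
    (hz : (f e').det = (f e).det * algebraMap K Ω (z * star z)) :
    LocF B v e e' := by
  obtain ⟨T, hT⟩ := tensor_finG hS hdeg f v hv hcl he he' he0 he0' hz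
  exact locF_of_tensor B v (sigG hS) (fun x => rfl) T hT

/-- `K` embeds in the completion where the polynomial of `κ` has a root. -/
theorem isEmpty_of_spl {κ : K} {ν : k} (hν : κ * κ + κ = algebraMap k K ν) {v : Place k}
    (hv : ¬ Spl2 v ν) : IsEmpty (K →ₐ[k] v.comp) := by
  refine ⟨fun j => hv ⟨j κ, ?_⟩⟩
  rw [sq, ← map_mul, ← map_add, hν, j.commutes]

/-- **Landherr's theorem in rank one**, from the local classification and the approximation
theorem. -/
theorem landG_of (hS : SetG k K D) (h2 : (2 : k) = 0) {κ : K} {ν : k}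
    (hκ : star κ = κ + 1) (hν : κ * κ + κ = algebraMap k K ν)
    (hdeg : finrank K D = n ^ 2) (f : D →ₐ[K] Matrix (Fin n) (Fin n) Ω)
    (hcl : ∀ v : Place k, HermCl v.comp n)
    (hglob : ∀ {N : ℕ} (B : Basis (Fin N) k D) (L : Set D) (_ : L.Finite) (tv : Place k → D)
      (δv : Place k → ℝ) (_ : ∀ p, 0 < δv p), ∃ t : D, t ≠ 0 ∧ ∃ S : Set (Place k), S.Finite ∧
      (∀ v ∈ S, na B v.abv (t - tv v) < δv v) ∧
      (∀ v ∉ S, v.abv ν ≤ 1 ∧ Gd B v.abv ∧ (∀ x ∈ L, Ig B v.abv x) ∧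
        (¬ Spl2 v ν → ∃ l : k, l ≠ 0 ∧ Ig B v.abv (l⁻¹ • t) ∧ Ig B v.abv (l • t⁻¹))))
    {c e : D} (hc : star c = c) (he : star e = e) (hc0 : c ≠ 0) (he0 : e ≠ 0) {z : K}
    (hz : (f e).det = (f c).det * algebraMap K Ω (z * star z)) :
    ∃ t : D, t ≠ 0 ∧ e = t * c * star t := by
  have := hS.fin
  have := hS.finK
  have : FiniteDimensional k D := Module.Finite.trans K D
  obtain ⟨t, ht, h⟩ := global_of_exists hS h2 hκ hν (finBasis k D) (hglob (finBasis k D)) hc he
    hc0 he0 fun v hv => loc_finG hS hdeg (finBasis k D) f v (isEmpty_of_spl hν hv)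
      (hcl v) hc he hc0 he0 hz
  exact ⟨star t, star_ne_zero.mpr ht, by rw [star_star]; exact h⟩

end Vale.Agent.P011.H308.L2
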