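import Vale.Agent.P011.H308.L2.Simple
import Vale.Agent.P011.H279.SplG

/-!
The matrix model, over the completion at a place which does not split, of a division algebra with
an involution of the second kind over a function field, in every characteristic.
-/

open Module Matrix TensorProduct Polynomial

set_option linter.unusedSectionVars false

namespace Vale.Agent.P011.H308.L2

open Vale.Agent.P011.H738 Vale.Agent.P011.H271 Vale.Agent.P011.H279.Art
  Vale.Agent.P011.H279.Sq
open Vale.Agent.P011.H961 (SetG)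

variable {k K D : Type} [Field k] [Field K] [StarRing K] [DivisionRing D] [StarRing D]
  [Algebra k K] [Algebra k D] [Algebra K D] [IsScalarTower k K D] {n : ℕ}

/-- The involution as a linear map. -/
noncomputable def sigG (h : SetG k K D) : D →ₗ[k] D where
  toFun := star
  map_add' := star_add
  map_smul' c x := h.star_smulk c x

theorem sigG_apply (h : SetG k K D) (x : D) : sigG h x = star x := rfl

/-- The polynomial of `κ` has no root where `K` does not embed. -/
theorem no_root (hS : SetG k K D) {κ : K} (hκ : star κ ≠ κ) {ν : k}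
    (hν : κ ^ 2 = κ - algebraMap k K ν) {M : Type} [Field M] [Algebra k M]
    (hv : IsEmpty (K →ₐ[k] M)) (x : M) : x ^ 2 ≠ x - algebraMap k M ν := by
  have := hS.finK
  intro h
  obtain ⟨ι, -⟩ := exists_hom' (F := k) (L := K) (M := M) hS.rank (kappa_notMem hS hκ)
    (kp_monic ν) (kp_deg ν) (by rw [aeval_kp]; exact hν) (u := x) (by rw [aeval_kp]; exact h)
  exact hv.false ι

theorem finrank_kDG' (hS : SetG k K D) (hn : finrank K D = n ^ 2) :
    finrank k D = 2 * n ^ 2 := by
  have := hS.finK
  rw [← Module.finrank_mul_finrank k K D, hS.rank, hn]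

/-- **The matrix model at a place which does not split.** -/
theorem exists_modelG [GFF k] (hS : SetG k K D) (hn : finrank K D = n ^ 2)
    (v : Place k) (hemp : IsEmpty (K →ₐ[k] v.comp)) :
    ∃ (L : Type) (_ : Field L) (_ : Algebra v.comp L) (_ : StarRing L)
      (ρ : v.comp ⊗[k] D ≃ₐ[v.comp] Matrix (Fin n) (Fin n) L) (φ : K →+* L)
      (G : Matrix (Fin n) (Fin n) L),
      (∀ x : L, star x = x ↔ x ∈ Set.range (algebraMap v.comp L)) ∧
      Module.finrank v.comp L = 2 ∧ (∃ x : L, star x ≠ x) ∧ IsUnit G ∧ Gᴴ = G ∧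
      (∀ T, G * ρ ((sigG hS).baseChange v.comp T) = (ρ T)ᴴ * G) ∧
      (∀ c : K, ρ ((1 : v.comp) ⊗ₜ[k] algebraMap K D c) = algebraMap L _ (φ c)) ∧
      (∀ c, φ (star c) = star (φ c)) ∧
      (∀ c : k, φ (algebraMap k K c) = algebraMap v.comp L (algebraMap k v.comp c)) := by
  have := hS.fin
  have := hS.cen
  have := hS.starModule
  have hn0 : 0 < n := W.deg_pos hn
  have hA := hS.anis hn
  obtain ⟨κ, hκ1, hκ⟩ := hS.exists_kappa
  obtain ⟨ν, -, hν⟩ := hS.exists_nu κ hκ1
  obtain ⟨L, _, _, _, _, _, φ, hst, hφ, hdense, hk, hFL, hfin⟩ :=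
    exists_quad_field hA.fixed hA.star_ne v hemp
  obtain ⟨g, hg⟩ := H738.splitNS hA hn0.ne' v hemp L φ hst hφ hdense hk hFL hfin
  have hne : ∃ x : L, star x ≠ x := by
    obtain ⟨x, hx⟩ := hA.star_ne
    refine ⟨φ x, fun h => hx ?_⟩
    rw [← hφ] at h
    exact φ.injective h
  have hfix : ∀ x : L, star x = x ↔ x ∈ Set.range (algebraMap v.comp L) := by
    let _ := nnfPlace v
    intro x
    refine H73.fixed_iff (F := v.comp) hst hne hFL hfin (S := Set.range (algebraMap k v.comp))
      ?_ ?_ x
    · change DenseRange (algebraMap k v.comp)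
      rw [Metric.denseRange_iff]
      intro x ε hε
      obtain ⟨a, ha⟩ := dense_alg v x hε
      exact ⟨a, by rwa [dist_eq_norm]⟩
    · rintro _ ⟨c, rfl⟩
      rw [← hk, ← hφ, (hA.fixed _).2 ⟨c, rfl⟩]
  obtain ⟨H, hHs, hHd, hH⟩ := H756.exists_herm hn0.ne' hA.finrank_eq hne φ hφ g hg
  -- the algebra map
  let _ : Algebra k L := ((algebraMap v.comp L).comp (algebraMap k v.comp)).toAlgebra
  have : IsScalarTower k v.comp L := IsScalarTower.of_algebraMap_eq fun x => rfl
  let g0 : D →ₐ[k] Matrix (Fin n) (Fin n) L :=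
    { g with
      commutes' := fun c => by
        change g (algebraMap k D c) = _
        rw [IsScalarTower.algebraMap_apply k K D, hg, hk]
        rfl }
  let ρ0 : v.comp ⊗[k] D →ₐ[v.comp] Matrix (Fin n) (Fin n) L :=
    Algebra.TensorProduct.lift (Algebra.ofId v.comp _) g0 fun x y =>
      Algebra.commutes x (g0 y)
  have hρ0 : ∀ a x, ρ0 (a ⊗ₜ[k] x) = algebraMap v.comp _ a * g x := fun a x =>
    Algebra.TensorProduct.lift_tmul _ _ _ _ _
  have : IsSimpleRing (v.comp ⊗[k] D) := simple_tensorG hν (hS.exists_coord hκ)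
    (no_root hS hκ hν hemp)
  have : Nonempty (Fin n) := ⟨⟨0, hn0⟩⟩
  have hinj : Function.Injective ρ0 := RingHom.injective ρ0.toRingHom
  have := hS.finK
  have : FiniteDimensional k D := Module.Finite.trans K D
  have : FiniteDimensional v.comp L := FiniteDimensional.of_finrank_pos (by omega)
  have hdim : finrank v.comp (v.comp ⊗[k] D) = finrank v.comp (Matrix (Fin n) (Fin n) L) := by
    rw [Module.finrank_baseChange, finrank_kDG' hS hn, Module.finrank_matrix, Fintype.card_fin,
      hfin]
    ring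
  have hbij : Function.Bijective ρ0 :=
    ⟨hinj, (LinearMap.injective_iff_surjective_of_finrank_eq_finrank hdim
      (f := ρ0.toLinearMap)).mp hinj⟩
  refine ⟨L, inferInstance, inferInstance, inferInstance, AlgEquiv.ofBijective ρ0 hbij, φ, H⁻¹,
    hfix, hfin, hne, ?_, ?_, ?_, ?_, hφ, hk⟩
  · exact (Matrix.isUnit_iff_isUnit_det _).mpr (Matrix.isUnit_nonsing_inv_det _
      (isUnit_iff_ne_zero.mpr hHd))
  · rw [Matrix.conjTranspose_nonsing_inv, hHs]
  · have hHu : IsUnit H.det := isUnit_iff_ne_zero.mpr hHd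
    have hG : ∀ x, H⁻¹ * g (star x) = (g x)ᴴ * H⁻¹ := by
      intro x
      calc H⁻¹ * g (star x) = H⁻¹ * (g (star x) * H) * H⁻¹ := by
            rw [Matrix.mul_assoc H⁻¹, Matrix.mul_assoc _ H, Matrix.mul_nonsing_inv _ hHu,
              Matrix.mul_one]
        _ = (H⁻¹ * H) * (g x)ᴴ * H⁻¹ := by rw [hH, Matrix.mul_assoc H⁻¹ H]
        _ = _ := by rw [Matrix.nonsing_inv_mul _ hHu, Matrix.one_mul]
    intro T
    change H⁻¹ * ρ0 ((sigG hS).baseChange v.comp T) = (ρ0 T)ᴴ * H⁻¹
    induction T using TensorProduct.induction_on with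
    | zero => simp
    | tmul a x =>
      have ha : (algebraMap v.comp (Matrix (Fin n) (Fin n) L) a)ᴴ =
          algebraMap v.comp (Matrix (Fin n) (Fin n) L) a := by
        rw [IsScalarTower.algebraMap_apply v.comp L, Matrix.algebraMap_eq_diagonal,
          Matrix.diagonal_conjTranspose]
        congr 1
        funext i
        exact (hfix _).mpr ⟨a, rfl⟩
      rw [LinearMap.baseChange_tmul, sigG_apply, hρ0, hρ0, Matrix.conjTranspose_mul, ha,
        ← Matrix.mul_assoc, ← Algebra.commutes a H⁻¹, Matrix.mul_assoc, hG, ← Matrix.mul_assoc,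
        Algebra.commutes a (g x)ᴴ]
    | add x y hx hy =>
      rw [map_add, map_add, Matrix.mul_add, hx, hy, map_add, Matrix.conjTranspose_add,
        Matrix.add_mul]
  · intro c
    change ρ0 ((1 : v.comp) ⊗ₜ[k] algebraMap K D c) = _
    rw [hρ0, map_one, one_mul, hg]

end Vale.Agent.P011.H308.L2
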