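import Vale.Agent.P011.H308.L2.LandG
import Vale.Agent.P011.H167.LandF

/-!
# Landherr's theorem over function fields in rank one: the case of odd degree

The statement of Landherr's theorem as a property of an algebra, characteristic different from
two, and the consequence for odd degree: every symmetric element is a multiple, by an element of
the ground field, of a norm `y * star y`.
-/

open Module Polynomial TensorProduct Matrix

set_option linter.unusedSectionVars false

namespace Vale.Agent.P011.H308.L2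

open Vale.Agent.P011.H738 Vale.Agent.P011.H271 Vale.Agent.P011.H182 Vale.Agent.P011.H305
  Vale.Agent.P011.H167.Lf
open Vale.Agent.P011.H961 (SetG)

variable {k K D : Type} [Field k] [Field K] [StarRing K]
    [DivisionRing D] [StarRing D] [Algebra k K] [Algebra k D] [Algebra K D] [IsScalarTower k K D]
    {n : ℕ} {Ω : Type} [Field Ω] [Algebra K Ω]

/-- The conclusion of Landherr's theorem in rank one. -/
def Land (f : D →ₐ[K] Matrix (Fin n) (Fin n) Ω) : Prop :=
  ∀ {c e : D}, star c = c → star e = e → c ≠ 0 → e ≠ 0 → ∀ {z : K},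
    (f e).det = (f c).det * algebraMap K Ω (z * star z) → ∃ t : D, t ≠ 0 ∧ e = t * c * star t

/-- Characteristic different from two. -/
theorem land_of_two_ne [GFF k] (hS : SetG k K D) (h2 : (2 : k) ≠ 0) (hdeg : finrank K D = n ^ 2)
    (f : D →ₐ[K] Matrix (Fin n) (Fin n) Ω) : Land f := by
  intro c e hc he hc0 he0 z hz
  obtain ⟨d, s, hF⟩ := hS.exists_setF h2
  exact landF' hF hdeg f hc he hc0 he0 hz

/-- **Odd degree: every symmetric element is a multiple of `y * star y`.** -/
theorem exists_smul_norm [GFF k] (hS : SetG k K D) (hdeg : finrank K D = n ^ 2) (hodd : Odd n)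
    (f : D →ₐ[K] Matrix (Fin n) (Fin n) Ω) (hL : Land f) {h c : D} (hh : star h = h)
    (hc : star c = c) (h0 : h ≠ 0) (hc0 : c ≠ 0) :
    ∃ (r : k) (y : D), r ≠ 0 ∧ y ≠ 0 ∧ h = r • (y * c * star y) := by
  obtain ⟨ν, hν0, hν⟩ := exists_nrdG hS hdeg f hh h0
  obtain ⟨μ, hμ0, hμ⟩ := exists_nrdG hS hdeg f hc hc0
  obtain ⟨m, rfl⟩ := hodd
  obtain ⟨r, hr⟩ : ∃ r : k, r = ν / μ := ⟨_, rfl⟩
  have hr0 : r ≠ 0 := by rw [hr]; exact div_ne_zero hν0 hμ0
  have hrc : star (r • c) = r • c := by rw [hS.star_smulk, hc]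
  have hrc0 : r • c ≠ 0 := smul_ne_zero hr0 hc0
  have hdet : (f (r • c)).det = algebraMap K Ω (algebraMap k K (r ^ (2 * m + 1) * μ)) := by
    rw [← algebraMap_smul K r c, map_smul, ← algebraMap_smul Ω (algebraMap k K r) (f c),
      Matrix.det_smul, hμ, Fintype.card_fin, map_mul, map_mul, map_pow, map_pow]
  obtain ⟨t, ht0, ht⟩ := hL hrc hh hrc0 h0 (z := algebraMap k K (r ^ m)⁻¹) (by
    rw [hdet, hν, hS.star_algebraMap, ← map_mul, ← map_mul, ← map_mul]
    congr 2
    have e1 : ν = r * μ := by rw [hr, div_mul_cancel₀ _ hμ0]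
    rw [e1]
    field_simp
    ring)
  refine ⟨r, t, hr0, ht0, ?_⟩
  rw [ht, mul_smul_comm, smul_mul_assoc]

end Vale.Agent.P011.H308.L2
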