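import Vale.Agent.P011.Even.LocSimple

/-!
# The local algebra of a division algebra with an involution of the second kind is simple

The twin of `Even.LocSimple.simple_tensor` for every characteristic.
-/

namespace Vale.Agent.P011.H308.L2

open Module TensorProduct Vale.Agent.P011.Even.LocSimple

variable {k D F : Type} [Field k] [DivisionRing D] [Algebra k D] [Field F] [Algebra k F]
  {K : Type} [Field K] [Algebra k K] [Algebra K D] [IsScalarTower k K D] [Algebra.IsCentral K D]

/-- the base change is simple -/
theorem simple_tensorG {ν : k} {s : K} (hs : s ^ 2 = s - algebraMap k K ν)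
    (hspan : ∀ x : K, ∃ a b : k, x = algebraMap k K a + algebraMap k K b * s)
    (hd : ∀ x : F, x ^ 2 ≠ x - algebraMap k F ν) : IsSimpleRing (F ⊗[k] D) := by
  classical
  let b := Basis.ofVectorSpace k F
  have key : ∀ (n : ℕ) (I : TwoSidedIdeal (F ⊗[k] D)) (x : F ⊗[k] D), x ∈ I → x ≠ 0 →
      (crd b x).support.card = n → I = ⊤ := by
    intro n
    induction n using Nat.strong_induction_on with
    | _ n ih =>
      intro I x hx hx0 hn
      have hv0 : crd b x ≠ 0 := by
        intro h0
        exact hx0 ((crd b).map_eq_zero_iff.mp h0)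
      obtain ⟨i0, hi0⟩ : ∃ i, crd b x i ≠ 0 := by
        by_contra hcon
        push Not at hcon
        exact hv0 (Finsupp.ext hcon)
      obtain ⟨y, hy⟩ : ∃ y, y = x * (1 ⊗ₜ (crd b x i0)⁻¹) := ⟨_, rfl⟩
      have hyI : y ∈ I := by rw [hy]; exact I.mul_mem_right _ _ hx
      have hyc : ∀ i, crd b y i = crd b x i * (crd b x i0)⁻¹ := fun i => by
        rw [hy, crd_mul_right]
      have hy1 : crd b y i0 = 1 := by rw [hyc, mul_inv_cancel₀ hi0]
      have hysup : (crd b y).support ⊆ (crd b x).support := by
        intro i hi
        rw [Finsupp.mem_support_iff] at hi ⊢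
        intro h0
        apply hi
        rw [hyc, h0, zero_mul]
      by_cases hcomm : ∀ d : D, (1 ⊗ₜ d) * y = y * (1 ⊗ₜ d)
      · obtain ⟨f, g, he⟩ := center_tensor hspan hcomm
        have hfg : f ^ 2 + f * g + algebraMap k F ν * g ^ 2 ≠ 0 := by
          intro h0
          by_cases hg : g = 0
          · rw [hg] at h0
            have hf : f = 0 := by
              have : f ^ 2 = 0 := by simpa using h0
              exact pow_eq_zero_iff (two_ne_zero) |>.1 this
            rw [hf, hg, TensorProduct.zero_tmul, TensorProduct.zero_tmul, add_zero] at he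
            rw [he, map_zero, Finsupp.zero_apply] at hy1
            exact zero_ne_one hy1
          · apply hd (-f / g)
            field_simp
            linear_combination h0
        rw [← TwoSidedIdeal.one_mem_iff]
        have h1 : (1 : F ⊗[k] D) = ((f ^ 2 + f * g + algebraMap k F ν * g ^ 2)⁻¹ ⊗ₜ 1) *
            (((f + g) ⊗ₜ 1 - g ⊗ₜ (algebraMap K D s)) * y) := by
          have h2 : ((f + g) ⊗ₜ 1 - g ⊗ₜ (algebraMap K D s)) * y =
              (f ^ 2 + f * g + algebraMap k F ν * g ^ 2) ⊗ₜ (1 : D) := by
            have hss : algebraMap K D s * algebraMap K D s =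
                algebraMap K D s - ν • (1 : D) := by
              rw [← map_mul, ← sq, hs, map_sub, ← IsScalarTower.algebraMap_apply,
                Algebra.algebraMap_eq_smul_one ν]
            rw [he, sub_mul, mul_add, mul_add, Algebra.TensorProduct.tmul_mul_tmul,
              Algebra.TensorProduct.tmul_mul_tmul, Algebra.TensorProduct.tmul_mul_tmul,
              Algebra.TensorProduct.tmul_mul_tmul, mul_one, mul_one, one_mul, hss,
              TensorProduct.tmul_sub, TensorProduct.tmul_smul, TensorProduct.smul_tmul',
              Algebra.smul_def]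
            have e1 : (f + g) * f = f ^ 2 + f * g := by ring
            have e2 : (f + g) * g = f * g + g * g := by ring
            have e3 : algebraMap k F ν * (g * g) = algebraMap k F ν * g ^ 2 := by ring
            rw [e1, e2, e3, TensorProduct.add_tmul, TensorProduct.add_tmul,
              TensorProduct.add_tmul, mul_comm g f]
            rw [TensorProduct.add_tmul]
            abel
          rw [h2, Algebra.TensorProduct.tmul_mul_tmul, inv_mul_cancel₀ hfg, mul_one,
            Algebra.TensorProduct.one_def]
        rw [h1]
        exact I.mul_mem_left _ _ (I.mul_mem_left _ _ hyI)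
      · push Not at hcomm
        obtain ⟨d, hd⟩ := hcomm
        obtain ⟨z, hz⟩ : ∃ z, z = (1 ⊗ₜ d) * y - y * (1 ⊗ₜ d) := ⟨_, rfl⟩
        have hzI : z ∈ I := by
          rw [hz]
          exact I.sub_mem (I.mul_mem_left _ _ hyI) (I.mul_mem_right _ _ hyI)
        have hz0 : z ≠ 0 := by rw [hz]; exact sub_ne_zero.mpr hd
        have hzc : ∀ i, crd b z i = d * crd b y i - crd b y i * d := by
          intro i
          rw [hz, map_sub, Finsupp.sub_apply, crd_mul_left, crd_mul_right]
        refine ih (crd b z).support.card ?_ I z hzI hz0 rfl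
        rw [← hn]
        apply Finset.card_lt_card
        rw [Finset.ssubset_iff_of_subset]
        · refine ⟨i0, by rw [Finsupp.mem_support_iff]; exact hi0, ?_⟩
          rw [Finsupp.mem_support_iff, hzc, hy1, mul_one, one_mul, sub_self]
          simp
        · intro i hi
          rw [Finsupp.mem_support_iff, hzc] at hi
          apply hysup
          rw [Finsupp.mem_support_iff]
          intro h0
          apply hi
          rw [h0, mul_zero, zero_mul, sub_self]
  have hnt : Nontrivial (F ⊗[k] D) := by
    refine ⟨⟨1, 0, ?_⟩⟩
    intro h10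
    obtain ⟨i, hi⟩ : ∃ i, b.repr (1 : F) i ≠ 0 := by
      by_contra hcon
      push Not at hcon
      have h2 : b.repr (1 : F) = 0 := Finsupp.ext hcon
      exact one_ne_zero (b.repr.map_eq_zero_iff.mp h2)
    have h1 := congrArg (fun x => crd b x i) h10
    simp only [Algebra.TensorProduct.one_def, crd_tmul, map_zero, Finsupp.zero_apply,
      Algebra.smul_def, mul_one, map_eq_zero] at h1
    exact hi h1
  refine ⟨⟨fun I => ?_⟩⟩
  by_cases hI : I = ⊥
  · exact Or.inl hI
  · right
    obtain ⟨x, hx, hx0⟩ : ∃ x ∈ I, x ≠ 0 := by
      by_contra hcon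
      push Not at hcon
      apply hI
      rw [eq_bot_iff]
      intro x hx
      rw [TwoSidedIdeal.mem_bot]
      exact hcon x hx
    exact key _ I x hx hx0 rfl

end Vale.Agent.P011.H308.L2
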